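import Mathlib

/-!
P054: distinct distances in dense subsets of lattice boxes of arbitrary shape.

The energy bound is uniform in the Gram matrix: the number of pairs `a, b` of integer vectors in a
box of radius `R` orthogonal for a given nondegenerate form is `O(R ^ (2 * d - 2))` for `d ≥ 3`.
-/

open Finset

namespace Vale.Agent.P054

variable {d : ℕ}

/-- Integer vectors with all coordinates in `[-R, R]`. -/
noncomputable def box (d R : ℕ) : Finset (Fin d → ℤ) := Fintype.piFinset fun _ => Icc (-(R : ℤ)) R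

/-- The supremum norm of an integer vector, as a natural number. -/
def sn (x : Fin d → ℤ) : ℕ := univ.sup fun i => (x i).natAbs

/-- An integer vector as a real vector. -/
def toR (x : Fin d → ℤ) : Fin d → ℝ := fun i => (x i : ℝ)

theorem mem_box {R : ℕ} {x : Fin d → ℤ} : x ∈ box d R ↔ ∀ i, -(R : ℤ) ≤ x i ∧ x i ≤ R := by
  simp [box]

theorem mem_box_sn {R : ℕ} {x : Fin d → ℤ} : x ∈ box d R ↔ sn x ≤ R := by
  simp only [mem_box, sn, Finset.sup_le_iff, mem_univ, true_imp_iff]
  exact forall_congr' fun i => by omega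

theorem card_box (d R : ℕ) : (box d R).card = (2 * R + 1) ^ d := by
  simp only [box, Fintype.card_piFinset, Int.card_Icc, prod_const, card_univ, Fintype.card_fin]
  congr 1
  omega

theorem box_mono {R S : ℕ} (h : R ≤ S) : box d R ⊆ box d S := fun x hx => by
  rw [mem_box_sn] at hx ⊢
  exact hx.trans h

theorem le_sn (x : Fin d → ℤ) (i : Fin d) : (x i).natAbs ≤ sn x :=
  Finset.le_sup (f := fun i => (x i).natAbs) (mem_univ i)

theorem sn_pos {x : Fin d → ℤ} (hx : x ≠ 0) : 0 < sn x := by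
  obtain ⟨i, hi⟩ : ∃ i, x i ≠ 0 := by
    by_contra h; push Not at h; exact hx (funext h)
  exact lt_of_lt_of_le (Int.natAbs_pos.2 hi) (le_sn x i)

theorem toR_ne_zero {x : Fin d → ℤ} (hx : x ≠ 0) : toR x ≠ 0 := fun h =>
  hx (funext fun i => Int.cast_eq_zero.1 (congrFun h i : (x i : ℝ) = 0))

/-- In a finitely generated abelian group, the image of the box of radius `n` has at least `n + 1`
elements unless it already is the whole image. -/
theorem image_box_growth {A : Type*} [AddCommGroup A] [DecidableEq A]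
    (ψ : (Fin d → ℤ) →+ A) (n : ℕ) :
    n + 1 ≤ ((box d n).image ψ).card ∨ ∀ z, ψ z ∈ (box d n).image ψ := by
  induction n with
  | zero =>
    refine Or.inl (Finset.card_pos.2 ⟨ψ 0, mem_image_of_mem _ ?_⟩)
    simp [mem_box]
  | succ n ih =>
    have hsub : (box d n).image ψ ⊆ (box d (n + 1)).image ψ :=
      image_subset_image (box_mono n.le_succ)
    rcases ih with ih | ih
    · rcases hsub.eq_or_ssubset with he | hl
      · refine Or.inr fun z => ?_
        have key : ∀ m : ℕ, ∀ y ∈ box d m, ψ y ∈ (box d (n + 1)).image ψ := by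
          intro m
          induction m with
          | zero => exact fun y hy => mem_image_of_mem _ (box_mono (Nat.zero_le _) hy)
          | succ m hm =>
            intro y hy
            rw [mem_box] at hy
            let y' : Fin d → ℤ := fun j => max (-(m : ℤ)) (min (m : ℤ) (y j))
            have hy' : y' ∈ box d m := mem_box.2 fun j => by simp only [y']; omega
            have h1 := hm y' hy'
            rw [← he] at h1
            obtain ⟨x, hx, hxy⟩ := mem_image.1 h1
            refine mem_image.2 ⟨x + (y - y'), mem_box.2 fun j => ?_, ?_⟩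
            · have := hy j
              have := mem_box.1 hx j
              simp only [y', Pi.add_apply, Pi.sub_apply]
              omega
            · rw [map_add, map_sub, hxy, add_sub_cancel]
        exact key (sn z) z (mem_box_sn.2 le_rfl)
      · exact Or.inl (by have := Finset.card_lt_card hl; omega)
    · exact Or.inr fun z => hsub (ih z)

/-- Integer points of a box in the hyperplane orthogonal to `u`. -/
noncomputable def kset (u : Fin d → ℝ) (R : ℕ) : Finset (Fin d → ℤ) :=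
  (box d R).filter fun b => ∑ i, u i * (b i : ℝ) = 0

/-- A box meets a hyperplane in `O(R ^ (d - 2))` points, unless the normal is proportional to a
small integer vector `w`, and then in `O(R ^ (d - 1) / ‖w‖)` points. -/
theorem kset_bound (u : Fin d → ℝ) (hu : u ≠ 0) (R : ℕ) :
    (kset u R).card * (R + 1) ≤ (4 * R + 1) ^ (d - 1) ∨
      ∃ w : Fin d → ℤ, w ≠ 0 ∧ sn w ≤ R ∧ (∃ c : ℝ, toR w = c • u) ∧
        (kset u R).card * sn w ≤ (4 * R + 1) ^ (d - 1) := by
  classical
  obtain ⟨j₀, hj₀⟩ : ∃ j, u j ≠ 0 := by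
    by_contra h; push Not at h; exact hu (funext h)
  obtain ⟨i, -, hi⟩ := Finset.exists_max_image univ (fun j => |u j|) ⟨j₀, mem_univ _⟩
  have hui : u i ≠ 0 := fun h => hj₀ <| by
    have := hi j₀ (mem_univ _)
    rw [h, abs_zero] at this
    exact abs_nonpos_iff.1 this
  let ψ : (Fin d → ℤ) →+ AddCircle (1 : ℝ) := AddMonoidHom.mk'
    (fun z => ((∑ j, u j / u i * (z j : ℝ) : ℝ) : AddCircle (1 : ℝ))) fun x y => by
      rw [← AddCircle.coe_add, ← Finset.sum_add_distrib]
      simp only [Pi.add_apply, Int.cast_add, mul_add]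
  have hψ : ∀ z, ψ z = ((∑ j, u j / u i * (z j : ℝ) : ℝ) : AddCircle (1 : ℝ)) := fun _ => rfl
  have hupd : ∀ (z : Fin d → ℤ) (a : ℤ), ψ (Pi.single i a) = 0 := fun z a => by
    rw [hψ, AddCircle.coe_eq_zero_iff]
    exact ⟨a, by simp [Pi.single_apply, hui]⟩
  have hker : ∀ b ∈ kset u R, ψ b = 0 := fun b hb => by
    have h0 := (mem_filter.1 hb).2
    have : (∑ j, u j / u i * (b j : ℝ)) = 0 := by
      rw [← mul_zero (u i)⁻¹, ← h0, mul_sum]
      exact sum_congr rfl fun j _ => by ring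
    rw [hψ, this]; rfl
  set T := (box d R).image ψ with hT
  have hz : ∀ t ∈ T, ∃ z ∈ box d R, ψ z = t := fun t ht => mem_image.1 ht
  choose! zt hzt1 hzt2 using hz
  -- translates of the hyperplane by representatives of distinct residues are disjoint
  have hmain : (kset u R).card * T.card ≤ (4 * R + 1) ^ (d - 1) := by
    have hcard : (Fintype.piFinset fun j : Fin d =>
        if j = i then ({0} : Finset ℤ) else Icc (-((2 * R : ℕ) : ℤ)) ((2 * R : ℕ) : ℤ)).card =
          (4 * R + 1) ^ (d - 1) := by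
      rw [Fintype.card_piFinset, ← Finset.mul_prod_erase univ _ (mem_univ i), if_pos rfl,
        card_singleton, one_mul, Finset.prod_congr rfl fun j hj => by
          rw [if_neg (ne_of_mem_erase hj), Int.card_Icc],
        prod_const, card_erase_of_mem (mem_univ i), card_univ, Fintype.card_fin]
      congr 1
      omega
    rw [← hcard, ← card_product]
    refine Finset.card_le_card_of_injOn (fun p => Function.update (p.1 + zt p.2) i 0)
      (fun p hp => ?_) fun p hp q hq hpq => ?_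
    · obtain ⟨hb, ht⟩ := mem_product.1 (mem_coe.1 hp)
      rw [mem_coe, Fintype.mem_piFinset]
      intro j
      rcases eq_or_ne j i with rfl | hj
      · simp
      · have := mem_box.1 (mem_filter.1 hb).1 j
        have := mem_box.1 (hzt1 _ ht) j
        simp only [if_neg hj, Function.update_of_ne hj, Pi.add_apply, mem_Icc]
        push_cast
        omega
    · obtain ⟨hb, ht⟩ := mem_product.1 (mem_coe.1 hp)
      obtain ⟨hb', ht'⟩ := mem_product.1 (mem_coe.1 hq)
      have hu' : ∀ z : Fin d → ℤ, ψ (Function.update z i 0) = ψ z := fun z => by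
        have hz' : Function.update z i 0 + Pi.single i (z i) = z := by
          funext j
          rcases eq_or_ne j i with rfl | hj <;> simp_all
        conv_rhs => rw [← hz', map_add, hupd z, add_zero]
      have h2 : p.2 = q.2 := by
        have := congrArg ψ hpq
        simp only [hu', map_add, hker _ hb, hker _ hb', zero_add] at this
        rwa [hzt2 _ ht, hzt2 _ ht'] at this
      have h1 : ∀ j, j ≠ i → p.1 j = q.1 j := fun j hj => by
        have := congrFun hpq j
        simpa [Function.update_of_ne hj, h2] using this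
      refine Prod.ext (funext fun j => ?_) h2
      rcases eq_or_ne j i with rfl | hj
      · have e1 := (mem_filter.1 hb).2
        have e2 := (mem_filter.1 hb').2
        rw [← Finset.add_sum_erase _ _ (mem_univ j)] at e1 e2
        rw [Finset.sum_congr rfl fun l hl => by rw [h1 l (ne_of_mem_erase hl)]] at e1
        have : u j * (p.1 j : ℝ) = u j * (q.1 j : ℝ) := by linarith
        exact_mod_cast mul_left_cancel₀ hui this
      · exact h1 j hj
  by_cases hTR : R + 1 ≤ T.card
  · exact Or.inl ((Nat.mul_le_mul_left _ hTR).trans hmain)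
  right
  have hall := (image_box_growth ψ R).resolve_left hTR
  have hrange : (ψ.range : Set (AddCircle (1 : ℝ))) = ↑T := by
    ext x
    simp only [AddMonoidHom.coe_range, Set.mem_range, mem_coe]
    exact ⟨fun ⟨z, hz⟩ => hz ▸ hall z, fun hx => ⟨zt x, hzt2 x hx⟩⟩
  have hm : Nat.card ψ.range = T.card := by
    rw [← SetLike.coe_sort_coe, Nat.card_congr (Equiv.setCongr hrange), Nat.card_coe_set_eq,
      Set.ncard_coe_finset]
  have hn : ∀ j, ∃ n : ℤ, (n : ℝ) = T.card * (u j / u i) := fun j => by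
    have h := congrArg Subtype.val
      (card_nsmul_eq_zero' (x := (⟨ψ (Pi.single j 1), _, rfl⟩ : ψ.range)))
    simp only [AddSubgroup.coe_nsmul, AddSubgroup.coe_zero, hm, hψ, ← AddCircle.coe_nsmul] at h
    obtain ⟨n, hn⟩ := (AddCircle.coe_eq_zero_iff (1 : ℝ)).1 h
    exact ⟨n, by simpa [Pi.single_apply] using hn⟩
  choose w hw using hn
  have hmpos : 0 < T.card := Finset.card_pos.2 ⟨_, hall 0⟩
  have hwi : w i = T.card := by
    have := hw i
    rw [div_self hui, mul_one] at this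
    exact_mod_cast this
  have hsn : sn w = T.card := by
    refine le_antisymm (Finset.sup_le fun j _ => ?_) (le_trans (by rw [hwi]; simp) (le_sn w i))
    have hle : |(w j : ℝ)| ≤ T.card := by
      rw [hw, abs_mul, Nat.abs_cast, abs_div]
      exact mul_le_of_le_one_right (Nat.cast_nonneg _)
        ((div_le_one (abs_pos.2 hui)).2 (hi j (mem_univ _)))
    have : ((w j).natAbs : ℝ) ≤ T.card := by rwa [Nat.cast_natAbs, Int.cast_abs]
    exact_mod_cast this
  refine ⟨w, fun h => by simp [h] at hwi; omega, by omega, ⟨T.card / u i, funext fun j => ?_⟩, ?_⟩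
  · simp only [toR, hw, Pi.smul_apply, smul_eq_mul]
    ring
  · rw [hsn]; exact hmain

/-- Nonzero vectors of the box. -/
noncomputable def nz (d R : ℕ) : Finset (Fin d → ℤ) := (box d R).filter (· ≠ 0)

theorem sum_inv_sq_le (e R : ℕ) :
    ∑ x ∈ nz (e + 3) R, 1 / (sn x : ℝ) ^ 2 ≤ 2 * (e + 3) * 3 ^ (e + 2) * (R : ℝ) ^ (e + 1) := by
  have hmaps : ∀ x ∈ nz (e + 3) R, sn x ∈ Icc 1 R := fun x hx => by
    obtain ⟨h1, h2⟩ := mem_filter.1 hx
    exact mem_Icc.2 ⟨sn_pos h2, mem_box_sn.1 h1⟩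
  have key : ∀ a : ℝ, 2 ≤ a → ∀ n : ℕ, a ^ (n + 1) ≤ (a - 2) ^ (n + 1) + 2 * (n + 1) * a ^ n := by
    intro a ha n
    induction n with
    | zero => simp
    | succ n ih =>
      have h1 : (a - 2) ^ (n + 1) ≤ a ^ (n + 1) := by (gcongr; linarith)
      calc a ^ (n + 1 + 1) = a * a ^ (n + 1) := by ring
        _ ≤ a * ((a - 2) ^ (n + 1) + 2 * (n + 1) * a ^ n) := by gcongr
        _ ≤ _ := by push_cast; linear_combination 2 * h1
  rw [← sum_fiberwise_of_maps_to hmaps]
  calc ∑ k ∈ Icc 1 R, ∑ x ∈ nz (e + 3) R with sn x = k, 1 / (sn x : ℝ) ^ 2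
      ≤ ∑ k ∈ Icc 1 R, 2 * (e + 3) * 3 ^ (e + 2) * (R : ℝ) ^ e := by
        refine sum_le_sum fun k hk => ?_
        obtain ⟨hk1, hkR⟩ := mem_Icc.1 hk
        rw [sum_congr rfl fun x hx => by rw [(mem_filter.1 hx).2], sum_const, nsmul_eq_mul]
        have hsub : (nz (e + 3) R).filter (fun x => sn x = k) ⊆
            box (e + 3) k \ box (e + 3) (k - 1) := fun x hx => by
          have := (mem_filter.1 hx).2
          rw [mem_sdiff, mem_box_sn, mem_box_sn]
          omega
        have hc := card_le_card hsub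
        rw [card_sdiff_of_subset (box_mono (Nat.sub_le k 1)), card_box, card_box] at hc
        have hc' := Nat.add_le_of_le_sub (Nat.pow_le_pow_left (by omega) _) hc
        have hcR : (((nz (e + 3) R).filter (fun x => sn x = k)).card : ℝ) +
            (2 * (k : ℝ) + 1 - 2) ^ (e + 3) ≤ (2 * (k : ℝ) + 1) ^ (e + 3) := by
          have h : ((2 * (k - 1) + 1 : ℕ) : ℝ) = 2 * (k : ℝ) + 1 - 2 := by
            rw [Nat.cast_add, Nat.cast_mul, Nat.cast_sub hk1]; push_cast; ring
          rw [← h]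
          exact_mod_cast hc'
        have hk1' : (1 : ℝ) ≤ k := by exact_mod_cast hk1
        have hk2 := key (2 * (k : ℝ) + 1) (by linarith) (e + 2)
        push_cast at hk2
        have hkpos : (0 : ℝ) < (k : ℝ) ^ 2 := by positivity
        rw [mul_one_div, div_le_iff₀ hkpos]
        calc (((nz (e + 3) R).filter (fun x => sn x = k)).card : ℝ)
            ≤ 2 * (e + 3) * (2 * (k : ℝ) + 1) ^ (e + 2) := by linarith
          _ ≤ 2 * (e + 3) * (3 * (k : ℝ)) ^ (e + 2) := by gcongr; linarith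
          _ = 2 * (e + 3) * 3 ^ (e + 2) * (k : ℝ) ^ e * (k : ℝ) ^ 2 := by rw [mul_pow]; ring
          _ ≤ 2 * (e + 3) * 3 ^ (e + 2) * (R : ℝ) ^ e * (k : ℝ) ^ 2 := by gcongr
    _ = _ := by rw [sum_const, Nat.card_Icc, nsmul_eq_mul, Nat.add_sub_cancel, pow_succ]; ring

/-- Multiples of the shortest vector on a line. -/
theorem card_line_le {R : ℕ} {F : Finset (Fin d → ℤ)} {a₀ : Fin d → ℤ} (ha₀ : a₀ ≠ 0)
    (h0 : sn a₀ ≤ R) (hF : ∀ a ∈ F, sn a ≤ R ∧ ∃ l : ℝ, toR a = l • toR a₀)
    (hmin : ∀ a : Fin d → ℤ, a ≠ 0 → (∃ l : ℝ, toR a = l • toR a₀) → sn a₀ ≤ sn a) :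
    (F.card : ℝ) ≤ 4 * R / sn a₀ := by
  classical
  have hn : 0 < sn a₀ := sn_pos ha₀
  obtain ⟨i, -, hi⟩ : ∃ i ∈ (univ : Finset (Fin d)), (a₀ i).natAbs = sn a₀ := by
    obtain ⟨i, hi⟩ : ∃ i, a₀ i ≠ 0 := by
      by_contra h; push Not at h; exact ha₀ (funext h)
    obtain ⟨j, hj, h⟩ := Finset.exists_mem_eq_sup univ ⟨i, mem_univ i⟩ fun i => (a₀ i).natAbs
    exact ⟨j, hj, h.symm⟩
  have hFl : ∀ a ∈ F, ∃ l : ℝ, toR a = l • toR a₀ := fun a ha => (hF a ha).2
  choose! l hl using hFl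
  set q : ℕ := R / sn a₀ with hq
  have hsi : (sn a₀ : ℝ) = |(a₀ i : ℝ)| := by rw [← hi, Nat.cast_natAbs, Int.cast_abs]
  have hbound : ∀ a ∈ F, |l a| < (q : ℝ) + 1 := fun a ha => by
    have h1 : (a i : ℝ) = l a * (a₀ i : ℝ) := congrFun (hl a ha) i
    have h2 : |(a i : ℝ)| ≤ R := by
      rw [← Int.cast_abs, ← Nat.cast_natAbs]
      exact_mod_cast (le_sn a i).trans (hF a ha).1
    rw [h1, abs_mul, ← hsi] at h2
    have h3 : (R : ℝ) < ((q : ℝ) + 1) * sn a₀ := by
      have hlt : R < (q + 1) * sn a₀ := (Nat.div_lt_iff_lt_mul hn).1 (Nat.lt_succ_self q)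
      exact_mod_cast hlt
    exact lt_of_mul_lt_mul_right (h2.trans_lt h3) (Nat.cast_nonneg _)
  have hle : F.card ≤ (Icc (-((q : ℤ) + 1)) (q : ℤ)).card := by
    refine card_le_card_of_injOn (fun a => ⌊l a⌋) (fun a ha => ?_) fun a ha b hb hab => ?_
    · have := abs_lt.1 (hbound a ha)
      rw [mem_coe, mem_Icc]
      refine ⟨Int.le_floor.2 (by push_cast; linarith), Int.lt_add_one_iff.1 (Int.floor_lt.2 ?_)⟩
      push_cast; linarith
    · by_contra hne
      have hdiff : toR (a - b) = (l a - l b) • toR a₀ := by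
        rw [sub_smul, ← hl a ha, ← hl b hb]
        funext j; simp [toR]
      have h1 := hmin (a - b) (sub_ne_zero.2 hne) ⟨_, hdiff⟩
      have hlt : |l a - l b| < 1 := Int.abs_sub_lt_one_of_floor_eq_floor hab
      obtain ⟨k, hk⟩ : ∃ k, (sn (a - b) : ℝ) = |(((a - b) k : ℤ) : ℝ)| := by
        obtain ⟨j, -, h⟩ := Finset.exists_mem_eq_sup univ ⟨i, mem_univ i⟩
          fun i => ((a - b) i).natAbs
        exact ⟨j, by rw [show sn (a - b) = _ from h, Nat.cast_natAbs, Int.cast_abs]⟩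
      have h2 : |(((a - b) k : ℤ) : ℝ)| = |l a - l b| * |(a₀ k : ℝ)| := by
        rw [← abs_mul]; congr 1; exact congrFun hdiff k
      have h3 : |(a₀ k : ℝ)| ≤ sn a₀ := by
        rw [← Int.cast_abs, ← Nat.cast_natAbs]
        exact_mod_cast le_sn a₀ k
      have h4 : (sn a₀ : ℝ) ≤ sn (a - b) := by exact_mod_cast h1
      have h5 : (0 : ℝ) < sn a₀ := by exact_mod_cast hn
      nlinarith [abs_nonneg (a₀ k : ℝ), abs_nonneg (l a - l b)]
  have hle' : F.card ≤ 2 * q + 2 := by
    rw [Int.card_Icc] at hle; omega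
  have hq1 : 1 ≤ q := (Nat.one_le_div_iff hn).2 h0
  have h5 : (0 : ℝ) < sn a₀ := by exact_mod_cast hn
  rw [le_div_iff₀ h5]
  have : F.card * sn a₀ ≤ 4 * R := by
    have := Nat.div_mul_le_self R (sn a₀)
    rw [← hq] at this
    nlinarith
  exact_mod_cast this

/-- The uniform count of orthogonal pairs, in any dimension. -/
theorem pairs_bound_general (k : ℕ)
    (G : (Fin (k + 1) → ℝ) →ₗ[ℝ] (Fin (k + 1) → ℝ)) (hG : Function.Injective G) (R : ℕ)
    (hR : 1 ≤ R) :
    ∑ a ∈ box (k + 1) R, ((kset (G (toR a)) R).card : ℝ) ≤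
      (2 * (R : ℝ) + 1) ^ (k + 1) +
        (2 * (R : ℝ) + 1) ^ (k + 1) * ((4 * (R : ℝ) + 1) ^ k / (R + 1)) +
        (4 * (R : ℝ) + 1) ^ k * (4 * R) * ∑ x ∈ nz (k + 1) R, 1 / (sn x : ℝ) ^ 2 := by
  classical
  have hR' : (1 : ℝ) ≤ R := by exact_mod_cast hR
  let lineA : (Fin (k + 1) → ℤ) → Submodule ℝ (Fin (k + 1) → ℝ) :=
    fun a => Submodule.span ℝ {G (toR a)}
  let lineW : (Fin (k + 1) → ℤ) → Submodule ℝ (Fin (k + 1) → ℝ) :=
    fun w => Submodule.span ℝ {toR w}
  set Λ := ((nz (k + 1) R).image lineA).filter (· ∈ (nz (k + 1) R).image lineW) with hΛ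
  have hA : ∀ L ∈ Λ, ∃ a ∈ (nz (k + 1) R).filter (fun a => lineA a = L),
      ∀ b ∈ (nz (k + 1) R).filter (fun a => lineA a = L), sn a ≤ sn b := fun L hL => by
    obtain ⟨a, ha, rfl⟩ := mem_image.1 (mem_filter.1 hL).1
    exact exists_min_image _ _ ⟨a, mem_filter.2 ⟨ha, rfl⟩⟩
  have hW : ∀ L ∈ Λ, ∃ w ∈ (nz (k + 1) R).filter (fun w => lineW w = L),
      ∀ v ∈ (nz (k + 1) R).filter (fun w => lineW w = L), sn w ≤ sn v := fun L hL => by
    obtain ⟨w, hw, rfl⟩ := mem_image.1 (mem_filter.1 hL).2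
    exact exists_min_image _ _ ⟨w, mem_filter.2 ⟨hw, rfl⟩⟩
  choose! a₀ ha₀ ha₀min using hA
  choose! w₀ hw₀ hw₀min using hW
  set Q : ℝ := (4 * (R : ℝ) + 1) ^ k with hQ
  have hper : ∀ a ∈ nz (k + 1) R, ((kset (G (toR a)) R).card : ℝ) ≤
      Q / (R + 1) + if lineA a ∈ Λ then Q / sn (w₀ (lineA a)) else 0 := by
    intro a ha
    obtain ⟨hab, han⟩ := mem_filter.1 ha
    have hu : G (toR a) ≠ 0 := fun h => toR_ne_zero han (hG (h.trans (map_zero G).symm))
    rcases kset_bound _ hu R with h | ⟨w, hw0, hwR, ⟨c, hc⟩, h⟩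
    · have h' : ((kset (G (toR a)) R).card : ℝ) ≤ Q / (R + 1) := by
        rw [le_div_iff₀ (by linarith), hQ]
        rw [show k + 1 - 1 = k by omega] at h
        exact_mod_cast h
      exact h'.trans (le_add_of_nonneg_right (by split_ifs <;> positivity))
    · have hwnz : w ∈ nz (k + 1) R := mem_filter.2 ⟨mem_box_sn.2 hwR, hw0⟩
      have hline : lineW w = lineA a := by
        have hc0 : c ≠ 0 := fun h0 => toR_ne_zero hw0 (by rw [hc, h0, zero_smul])
        change Submodule.span ℝ {toR w} = Submodule.span ℝ {G (toR a)}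
        rw [hc, Submodule.span_singleton_smul_eq (IsUnit.mk0 c hc0)]
      have hL : lineA a ∈ Λ := mem_filter.2
        ⟨mem_image_of_mem _ ha, mem_image.2 ⟨w, hwnz, hline⟩⟩
      rw [if_pos hL]
      have hmin := hw₀min _ hL w (mem_filter.2 ⟨hwnz, hline⟩)
      have hpos : 0 < sn (w₀ (lineA a)) :=
        sn_pos (mem_filter.1 (mem_filter.1 (hw₀ _ hL)).1).2
      refine le_trans ?_ (le_add_of_nonneg_left (by positivity))
      rw [le_div_iff₀ (by exact_mod_cast hpos)]
      rw [show k + 1 - 1 = k by omega] at h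
      rw [hQ]
      exact_mod_cast (Nat.mul_le_mul_left _ hmin).trans h
  set Sg : ℝ := ∑ x ∈ nz (k + 1) R, 1 / (sn x : ℝ) ^ 2 with hS
  have hlines : ∑ a ∈ nz (k + 1) R, (if lineA a ∈ Λ then Q / sn (w₀ (lineA a)) else 0) ≤
      Q * (4 * R) * Sg := by
    rw [← sum_filter, ← sum_fiberwise_of_maps_to (g := lineA) (t := Λ)
      fun a ha => (mem_filter.1 ha).2]
    calc _ ≤ ∑ L ∈ Λ, Q * (2 * R) * (1 / (sn (a₀ L) : ℝ) ^ 2 + 1 / (sn (w₀ L) : ℝ) ^ 2) := by
          refine sum_le_sum fun L hL => ?_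
          rw [sum_congr rfl fun a ha => by rw [(mem_filter.1 ha).2], sum_const, nsmul_eq_mul]
          obtain ⟨h0, h0L⟩ := mem_filter.1 (ha₀ L hL)
          obtain ⟨h0b, h0n⟩ := mem_filter.1 h0
          have hcard := card_line_le (F := (((nz (k + 1) R).filter fun a => lineA a ∈ Λ).filter
              fun a => lineA a = L)) h0n (mem_box_sn.1 h0b) (fun a ha => by
            obtain ⟨ha', haL⟩ := mem_filter.1 ha
            refine ⟨mem_box_sn.1 (mem_filter.1 (mem_filter.1 ha').1).1, ?_⟩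
            have : G (toR a) ∈ lineA (a₀ L) := by
              rw [h0L, ← haL]; exact Submodule.mem_span_singleton_self _
            obtain ⟨l, hl⟩ := Submodule.mem_span_singleton.1 this
            exact ⟨l, hG (by rw [map_smul, hl])⟩) fun b hb hbl => by
            by_contra hlt
            obtain ⟨l, hl⟩ := hbl
            have hbnz : b ∈ nz (k + 1) R := mem_filter.2
              ⟨mem_box_sn.2 ((le_of_lt (not_le.1 hlt)).trans (mem_box_sn.1 h0b)), hb⟩
            refine hlt (ha₀min L hL b (mem_filter.2 ⟨hbnz, ?_⟩))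
            have hl0 : l ≠ 0 := fun h => toR_ne_zero hb (by rw [hl, h, zero_smul])
            rw [← h0L]
            change Submodule.span ℝ {G (toR b)} = Submodule.span ℝ {G (toR (a₀ L))}
            rw [hl, map_smul, Submodule.span_singleton_smul_eq (IsUnit.mk0 l hl0)]
          have hx : (0 : ℝ) < sn (a₀ L) := by exact_mod_cast sn_pos h0n
          have hy : (0 : ℝ) < sn (w₀ L) := by
            exact_mod_cast sn_pos (mem_filter.1 (mem_filter.1 (hw₀ L hL)).1).2
          have hxy : 4 * (R : ℝ) / sn (a₀ L) * (1 / sn (w₀ L)) ≤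
              2 * R * (1 / (sn (a₀ L) : ℝ) ^ 2 + 1 / (sn (w₀ L) : ℝ) ^ 2) := by
            have := two_mul_le_add_sq (1 / (sn (a₀ L) : ℝ)) (1 / sn (w₀ L))
            rw [← one_div_pow, ← one_div_pow]
            have h4 : 4 * (R : ℝ) / sn (a₀ L) * (1 / sn (w₀ L)) =
                2 * R * (2 * (1 / (sn (a₀ L) : ℝ)) * (1 / sn (w₀ L))) := by ring
            rw [h4]; gcongr
          calc _ ≤ 4 * (R : ℝ) / sn (a₀ L) * (Q / sn (w₀ L)) := by gcongr
            _ = Q * (4 * (R : ℝ) / sn (a₀ L) * (1 / sn (w₀ L))) := by ring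
            _ ≤ Q * (2 * R * (1 / (sn (a₀ L) : ℝ) ^ 2 + 1 / (sn (w₀ L) : ℝ) ^ 2)) := by
                gcongr
            _ = _ := by ring
      _ = Q * (2 * R) * (∑ L ∈ Λ, 1 / (sn (a₀ L) : ℝ) ^ 2 +
            ∑ L ∈ Λ, 1 / (sn (w₀ L) : ℝ) ^ 2) := by
          rw [← sum_add_distrib, mul_sum]
      _ ≤ Q * (2 * R) * (Sg + Sg) := by
          gcongr
          · rw [← sum_image (f := fun x => 1 / (sn x : ℝ) ^ 2) (g := a₀) fun L hL M hM h => by
              rw [← (mem_filter.1 (ha₀ L hL)).2, ← (mem_filter.1 (ha₀ M hM)).2, h]]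
            exact sum_le_sum_of_subset_of_nonneg
              (image_subset_iff.2 fun L hL => (mem_filter.1 (ha₀ L hL)).1)
              fun x _ _ => by positivity
          · rw [← sum_image (f := fun x => 1 / (sn x : ℝ) ^ 2) (g := w₀) fun L hL M hM h => by
              rw [← (mem_filter.1 (hw₀ L hL)).2, ← (mem_filter.1 (hw₀ M hM)).2, h]]
            exact sum_le_sum_of_subset_of_nonneg
              (image_subset_iff.2 fun L hL => (mem_filter.1 (hw₀ L hL)).1)
              fun x _ _ => by positivity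
      _ = Q * (4 * R) * Sg := by ring
  have hzero : (0 : Fin (k + 1) → ℤ) ∈ box (k + 1) R := by simp [mem_box]
  rw [← add_sum_erase _ _ hzero]
  have herase : (box (k + 1) R).erase 0 = nz (k + 1) R := by
    ext x; simp [nz, and_comm]
  rw [herase]
  have h00 : ((kset (G (toR 0)) R).card : ℝ) ≤ (2 * (R : ℝ) + 1) ^ (k + 1) := by
    have := (card_filter_le (box (k + 1) R) fun b => ∑ i, G (toR 0) i * (b i : ℝ) = 0)
    rw [card_box] at this
    exact_mod_cast this
  have hrest : ∑ a ∈ nz (k + 1) R, ((kset (G (toR a)) R).card : ℝ) ≤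
      (2 * (R : ℝ) + 1) ^ (k + 1) * (Q / (R + 1)) + Q * (4 * R) * Sg := by
    refine (sum_le_sum hper).trans ?_
    rw [sum_add_distrib, sum_const, nsmul_eq_mul]
    refine add_le_add ?_ hlines
    gcongr
    have := card_filter_le (box (k + 1) R) (· ≠ 0)
    rw [card_box] at this
    exact_mod_cast this
  linarith

/-- The uniform count of orthogonal pairs. -/
theorem pairs_bound (e : ℕ) : ∃ C : ℝ, 0 < C ∧
    ∀ G : (Fin (e + 3) → ℝ) →ₗ[ℝ] (Fin (e + 3) → ℝ), Function.Injective G → ∀ R : ℕ, 1 ≤ R →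
      ∑ a ∈ box (e + 3) R, ((kset (G (toR a)) R).card : ℝ) ≤ C * (R : ℝ) ^ (2 * e + 4) := by
  classical
  refine ⟨3 ^ (e + 3) + 3 ^ (e + 3) * 5 ^ (e + 2) +
    5 ^ (e + 2) * (4 * (2 * (e + 3) * 3 ^ (e + 2))), by positivity, fun G hG R hR => ?_⟩
  have hR' : (1 : ℝ) ≤ R := by exact_mod_cast hR
  refine (pairs_bound_general (e + 2) G hG R hR).trans ?_
  set Q : ℝ := (4 * (R : ℝ) + 1) ^ (e + 2) with hQ
  set Sg : ℝ := ∑ x ∈ nz (e + 3) R, 1 / (sn x : ℝ) ^ 2 with hS
  have hb : (2 * (R : ℝ) + 1) ^ (e + 3) ≤ 3 ^ (e + 3) * (R : ℝ) ^ (e + 3) := by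
    rw [← mul_pow]; gcongr; linarith
  have hQb : Q ≤ 5 ^ (e + 2) * (R : ℝ) ^ (e + 2) := by
    rw [hQ, ← mul_pow]; gcongr; linarith
  have hb' : (2 * (R : ℝ) + 1) ^ (e + 3) * (Q / (R + 1)) ≤
      3 ^ (e + 3) * 5 ^ (e + 2) * (R : ℝ) ^ (2 * e + 4) := by
    rw [mul_div, div_le_iff₀ (by linarith)]
    calc (2 * (R : ℝ) + 1) ^ (e + 3) * Q
        ≤ 3 ^ (e + 3) * (R : ℝ) ^ (e + 3) * (5 ^ (e + 2) * (R : ℝ) ^ (e + 2)) := by gcongr
      _ = 3 ^ (e + 3) * 5 ^ (e + 2) * (R : ℝ) ^ (2 * e + 4) * R := by ring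
      _ ≤ _ := by gcongr; linarith
  have hSb : Q * (4 * R) * Sg ≤
      5 ^ (e + 2) * (4 * (2 * (e + 3) * 3 ^ (e + 2))) * (R : ℝ) ^ (2 * e + 4) := by
    calc Q * (4 * R) * Sg ≤ 5 ^ (e + 2) * (R : ℝ) ^ (e + 2) * (4 * R) *
          (2 * (e + 3) * 3 ^ (e + 2) * (R : ℝ) ^ (e + 1)) := by
          gcongr
          exact sum_inv_sq_le e R
      _ = _ := by ring
  have hpow : 3 ^ (e + 3) * (R : ℝ) ^ (e + 3) ≤ 3 ^ (e + 3) * (R : ℝ) ^ (2 * e + 4) := by
    exact mul_le_mul_of_nonneg_left (pow_le_pow_right₀ hR' (by omega)) (by positivity)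
  linarith

end Vale.Agent.P054
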