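import Vale.Agent.P054.LatticeBox

/-!
P041, P054: pinned distinct distances in dense subsets of lattice boxes of arbitrary shape.
-/

open Finset

namespace Vale.Agent.P054

theorem sum_inv_sq_le_two (R : ℕ) :
    ∑ x ∈ nz 2 R, 1 / (sn x : ℝ) ^ 2 ≤ 8 * (1 + Real.log R) := by
  have hmaps : ∀ x ∈ nz 2 R, sn x ∈ Icc 1 R := fun x hx => by
    obtain ⟨h1, h2⟩ := mem_filter.1 hx
    exact mem_Icc.2 ⟨sn_pos h2, mem_box_sn.1 h1⟩
  have hh : ∑ k ∈ Icc 1 R, (1 : ℝ) / k ≤ 1 + Real.log R := by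
    have := harmonic_le_one_add_log R
    rw [harmonic_eq_sum_Icc] at this
    push_cast at this
    simpa [one_div] using this
  rw [← sum_fiberwise_of_maps_to hmaps]
  calc ∑ k ∈ Icc 1 R, ∑ x ∈ nz 2 R with sn x = k, 1 / (sn x : ℝ) ^ 2
      ≤ ∑ k ∈ Icc 1 R, 8 * ((1 : ℝ) / k) := by
        refine sum_le_sum fun k hk => ?_
        obtain ⟨hk1, -⟩ := mem_Icc.1 hk
        rw [sum_congr rfl fun x hx => by rw [(mem_filter.1 hx).2], sum_const, nsmul_eq_mul]
        have hsub : (nz 2 R).filter (fun x => sn x = k) ⊆ box 2 k \ box 2 (k - 1) := fun x hx => by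
          have := (mem_filter.1 hx).2
          rw [mem_sdiff, mem_box_sn, mem_box_sn]
          omega
        have hc := card_le_card hsub
        rw [card_sdiff_of_subset (box_mono (Nat.sub_le k 1)), card_box, card_box] at hc
        have hc' : ((nz 2 R).filter (fun x => sn x = k)).card ≤ 8 * k := by
          obtain ⟨j, rfl⟩ : ∃ j, k = j + 1 := ⟨k - 1, by omega⟩
          refine hc.trans (le_of_eq ?_)
          rw [Nat.add_sub_cancel, Nat.sub_eq_iff_eq_add (Nat.pow_le_pow_left (by omega) 2)]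
          ring
        have hk' : (0 : ℝ) < k := by exact_mod_cast hk1
        calc (((nz 2 R).filter (fun x => sn x = k)).card : ℝ) * (1 / (k : ℝ) ^ 2)
            ≤ (8 * (k : ℝ)) * (1 / (k : ℝ) ^ 2) := by gcongr; exact_mod_cast hc'
          _ = 8 * (1 / (k : ℝ)) := by field_simp
    _ ≤ _ := by rw [← mul_sum]; gcongr

/-- In the plane the number of orthogonal pairs is `O(R ^ 2 * (1 + log R))`, uniformly. -/
theorem pairs_bound_two (G : (Fin 2 → ℝ) →ₗ[ℝ] (Fin 2 → ℝ)) (hG : Function.Injective G) (R : ℕ)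
    (hR : 1 ≤ R) :
    ∑ a ∈ box 2 R, ((kset (G (toR a)) R).card : ℝ) ≤ 214 * (R : ℝ) ^ 2 * (1 + Real.log R) := by
  have hR' : (1 : ℝ) ≤ R := by exact_mod_cast hR
  have hlog : 0 ≤ Real.log R := Real.log_nonneg hR'
  refine (pairs_bound_general 1 G hG R hR).trans ?_
  have h1 : (2 * (R : ℝ) + 1) ^ (1 + 1) ≤ 9 * (R : ℝ) ^ 2 := by
    rw [show (1 : ℕ) + 1 = 2 from rfl]; nlinarith
  have h2 : (4 * (R : ℝ) + 1) ^ 1 / ((R : ℝ) + 1) ≤ 5 := by
    rw [div_le_iff₀ (by linarith), pow_one]; linarith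
  have h3 := sum_inv_sq_le_two R
  calc _ ≤ 9 * (R : ℝ) ^ 2 + 9 * (R : ℝ) ^ 2 * 5 + (5 * R) * (4 * R) * (8 * (1 + Real.log R)) := by
        gcongr
        rw [pow_one]; linarith
    _ ≤ _ := by nlinarith [mul_nonneg (sq_nonneg (R : ℝ)) hlog]

/-- A pin with many distinct distances, given a bound `B` for the number of orthogonal pairs. -/
theorem pinned_of_pairs {d : ℕ} (hd : 0 < d) (B : ℕ → ℝ)
    (hB : ∀ G : (Fin d → ℝ) →ₗ[ℝ] (Fin d → ℝ), Function.Injective G → ∀ R : ℕ, 1 ≤ R →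
      ∑ a ∈ box d R, ((kset (G (toR a)) R).card : ℝ) ≤ B R)
    {E : Type*} [NormedAddCommGroup E] [InnerProductSpace ℝ E] (v : Fin d → E)
    (hv : LinearIndependent ℝ v) (t : ℕ) (S : Finset (Fin d → ℤ))
    (hS : ∀ x ∈ S, ∀ i, 0 ≤ x i ∧ x i < (t : ℤ)) (h2 : 2 ≤ S.card) :
    ∃ x ∈ S, (S.card : ℝ) ^ 2 ≤ 4 * B (2 * t) *
      (((S.erase x).image fun y : Fin d → ℤ =>
        dist (∑ i, (x i : ℝ) • v i) (∑ i, (y i : ℝ) • v i)).card : ℝ) := by
  classical
  let φ : (Fin d → ℝ) →ₗ[ℝ] E := Fintype.linearCombination ℝ v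
  have hφ : ∀ x : Fin d → ℤ, φ (toR x) = ∑ i, (x i : ℝ) • v i := fun x => by
    simp [φ, Fintype.linearCombination_apply, toR]
  let G : (Fin d → ℝ) →ₗ[ℝ] (Fin d → ℝ) := LinearMap.pi fun i => (innerₛₗ ℝ (v i)).comp φ
  have hG : ∀ x y, ∑ i, G x i * y i = inner ℝ (φ y) (φ x) := fun x y => by
    have hy : φ y = ∑ i, y i • v i := by simp [φ, Fintype.linearCombination_apply]
    rw [hy, sum_inner]
    refine sum_congr rfl fun i _ => ?_
    rw [real_inner_smul_left]
    exact mul_comm _ _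
  have hGi : Function.Injective G := by
    rw [injective_iff_map_eq_zero]
    intro x hx
    have h := hG x x
    simp only [hx, Pi.zero_apply, zero_mul, sum_const_zero] at h
    have h' : φ x = 0 := inner_self_eq_zero.1 h.symm
    exact funext (Fintype.linearIndependent_iff.1 hv x
      (by simpa [φ, Fintype.linearCombination_apply] using h'))
  obtain ⟨y₀, hy₀⟩ := Finset.card_pos.1 (by omega : 0 < S.card)
  have ht : 1 ≤ t := by
    have := hS y₀ hy₀ ⟨0, hd⟩
    omega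
  simp only [← hφ]
  set key : (Fin d → ℤ) → (Fin d → ℤ) → ℝ := fun x y => dist (φ (toR x)) (φ (toR y)) with hkey
  set W : (Fin d → ℤ) → Finset ((Fin d → ℤ) × (Fin d → ℤ)) := fun x =>
    ((S.erase x) ×ˢ (S.erase x)).filter fun p => key x p.1 = key x p.2 with hW
  set M : ℝ := ∑ a ∈ box d (2 * t), ((kset (G (toR a)) (2 * t)).card : ℝ) with hM
  have hsum : (((S.sigma W).card : ℕ) : ℝ) ≤ (S.card : ℝ) * M := by
    have hle : (S.sigma W).card ≤
        (S ×ˢ ((box d (2 * t)).sigma fun a => kset (G (toR a)) (2 * t))).card := by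
      refine card_le_card_of_injOn (fun p => (p.1,
        ⟨(p.2.1 - p.1) + (p.2.2 - p.1), (p.2.1 - p.1) - (p.2.2 - p.1)⟩))
        (fun p hp => ?_) fun p _ q _ hpq => ?_
      · obtain ⟨hx, hpW⟩ := mem_sigma.1 (mem_coe.1 hp)
        obtain ⟨hpp, hk⟩ := mem_filter.1 hpW
        obtain ⟨hy, hz⟩ := mem_product.1 hpp
        have hx' := hS _ hx
        have hy' := hS _ (mem_of_mem_erase hy)
        have hz' := hS _ (mem_of_mem_erase hz)
        rw [mem_coe, mem_product, mem_sigma]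
        refine ⟨hx, mem_box.2 fun j => ?_, mem_filter.2 ⟨mem_box.2 fun j => ?_, ?_⟩⟩
        · have := hx' j; have := hy' j; have := hz' j
          simp only [Pi.add_apply, Pi.sub_apply]
          omega
        · have := hx' j; have := hy' j; have := hz' j
          simp only [Pi.sub_apply]
          omega
        · refine (hG _ (toR _)).trans ?_
          have hsub : ∀ x y : Fin d → ℤ, toR (x - y) = toR x - toR y := fun x y => by
            funext j; simp [toR]
          have hadd : ∀ x y : Fin d → ℤ, toR (x + y) = toR x + toR y := fun x y => by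
            funext j; simp [toR]
          rw [hsub, hsub, hsub, hadd, hsub, hsub, map_sub, map_add, map_sub, map_sub,
            real_inner_comm, real_inner_add_sub_eq_zero_iff]
          simpa [hkey, dist_eq_norm, norm_sub_rev (φ (toR p.1))] using hk
      · obtain ⟨p1, p21, p22⟩ := p
        obtain ⟨q1, q21, q22⟩ := q
        simp only [Prod.mk.injEq, Sigma.mk.injEq, heq_eq_eq] at hpq
        obtain ⟨rfl, h3, h4⟩ := hpq
        have h5 : p21 = q21 ∧ p22 = q22 := by
          constructor <;> funext j <;>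
          · have := congrFun h3 j
            have := congrFun h4 j
            simp only [Pi.add_apply, Pi.sub_apply] at *
            omega
        rw [h5.1, h5.2]
    have hc : (((S ×ˢ ((box d (2 * t)).sigma
        fun a => kset (G (toR a)) (2 * t))).card : ℕ) : ℝ) = (S.card : ℝ) * M := by
      rw [card_product, card_sigma, hM]
      push_cast; ring
    rw [← hc]
    exact_mod_cast hle
  obtain ⟨x, hx, hxW⟩ : ∃ x ∈ S, ((W x).card : ℝ) ≤ M := by
    by_contra h
    push Not at h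
    have := sum_lt_sum_of_nonempty ⟨y₀, hy₀⟩ h
    rw [card_sigma, Nat.cast_sum] at hsum
    simp only [sum_const, nsmul_eq_mul] at this
    linarith
  refine ⟨x, hx, ?_⟩
  set D := (S.erase x).image (fun y => key x y) with hD
  change _ ≤ _ * (D.card : ℝ)
  have hCS : ((S.erase x).card : ℝ) ^ 2 ≤ D.card * ((W x).card : ℝ) := by
    have h1 : ((S.erase x).card : ℝ) =
        ∑ k ∈ D, (((S.erase x).filter fun y => key x y = k).card : ℝ) := by
      exact_mod_cast card_eq_sum_card_image (key x) (S.erase x)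
    have h3 : (W x).card = ∑ k ∈ D, ((S.erase x).filter fun y => key x y = k).card ^ 2 := by
      rw [card_eq_sum_card_fiberwise (f := fun p => key x p.1) (t := D) fun p hp =>
        mem_image_of_mem _ (mem_product.1 (mem_filter.1 hp).1).1]
      refine sum_congr rfl fun k _ => ?_
      rw [sq, ← card_product]
      refine congrArg Finset.card ?_
      ext ⟨p, q⟩
      simp only [mem_filter, mem_product]
      exact ⟨fun ⟨⟨⟨hp, hq⟩, he⟩, hk⟩ => ⟨⟨hp, hk⟩, hq, he.symm.trans hk⟩,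
        fun ⟨⟨hp, hk⟩, hq, hk'⟩ => ⟨⟨⟨hp, hq⟩, hk.trans hk'.symm⟩, hk⟩⟩
    rw [h1, h3]
    push_cast
    exact sq_sum_le_card_mul_sum_sq
  have hMle := hB G hGi (2 * t) (by omega)
  rw [← hM] at hMle
  have hec : ((S.erase x).card : ℝ) = (S.card : ℝ) - 1 := by
    rw [card_erase_of_mem hx, Nat.cast_sub (by omega)]; simp
  have hn : (2 : ℝ) ≤ S.card := by exact_mod_cast h2
  rw [hec] at hCS
  have h10 : (S.card : ℝ) ^ 2 ≤ 4 * ((S.card : ℝ) - 1) ^ 2 := by nlinarith
  calc (S.card : ℝ) ^ 2 ≤ 4 * (D.card * ((W x).card : ℝ)) := by linarith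
    _ ≤ 4 * (D.card * B (2 * t)) := by gcongr; exact hxW.trans hMle
    _ = _ := by ring

/-- A pin with many distinct distances, in the plane. -/
theorem pinned_lower :
    ∃ c : ℝ, 0 < c ∧ ∀ (E : Type*) [NormedAddCommGroup E] [InnerProductSpace ℝ E] (v : Fin 2 → E),
      LinearIndependent ℝ v → ∀ (t : ℕ) (S : Finset (Fin 2 → ℤ)),
        (∀ x ∈ S, ∀ i, 0 ≤ x i ∧ x i < (t : ℤ)) → 2 ≤ S.card →
        ∃ x ∈ S, c * (S.card : ℝ) ^ 2 ≤ (t : ℝ) ^ 2 * (1 + Real.log t) *
          (((S.erase x).image fun y : Fin 2 → ℤ =>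
            dist (∑ i, (x i : ℝ) • v i) (∑ i, (y i : ℝ) • v i)).card : ℝ) := by
  classical
  refine ⟨1 / (4 * 214 * 4 * 2), by norm_num, fun E _ _ v hv t S hS h2 => ?_⟩
  obtain ⟨x, hx, h⟩ := pinned_of_pairs two_pos
    (fun R => 214 * (R : ℝ) ^ 2 * (1 + Real.log R)) pairs_bound_two v hv t S hS h2
  refine ⟨x, hx, ?_⟩
  obtain ⟨y₀, hy₀⟩ := Finset.card_pos.1 (by omega : 0 < S.card)
  have ht : 1 ≤ t := by
    have := hS y₀ hy₀ 0
    omega
  have ht' : (1 : ℝ) ≤ t := by exact_mod_cast ht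
  have hlog2 : Real.log (2 * t) ≤ 1 + 2 * Real.log t := by
    rw [Real.log_mul two_ne_zero (by linarith)]
    linarith [Real.log_two_lt_d9, Real.log_nonneg ht']
  push_cast at h
  rw [one_div, inv_mul_le_iff₀ (by norm_num)]
  refine h.trans ?_
  rw [← mul_assoc (4 * 214 * 4 * 2 : ℝ)]
  refine mul_le_mul_of_nonneg_right ?_ (Nat.cast_nonneg _)
  have h8 : (1 : ℝ) + Real.log (2 * t) ≤ 2 * (1 + Real.log t) := by linarith
  calc (4 : ℝ) * (214 * (2 * (t : ℝ)) ^ 2 * (1 + Real.log (2 * t)))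
      ≤ 4 * (214 * (2 * (t : ℝ)) ^ 2 * (2 * (1 + Real.log t))) := by gcongr
    _ = _ := by ring

/-- A pin with many distinct distances, in dimension at least three. -/
theorem pinned_lower_high (d : ℕ) (hd : 3 ≤ d) :
    ∃ c : ℝ, 0 < c ∧ ∀ (E : Type*) [NormedAddCommGroup E] [InnerProductSpace ℝ E] (v : Fin d → E),
      LinearIndependent ℝ v → ∀ (t : ℕ) (S : Finset (Fin d → ℤ)),
        (∀ x ∈ S, ∀ i, 0 ≤ x i ∧ x i < (t : ℤ)) → 2 ≤ S.card →
        ∃ x ∈ S, c * (S.card : ℝ) ^ 2 ≤ (t : ℝ) ^ (2 * d - 2) *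
          (((S.erase x).image fun y : Fin d → ℤ =>
            dist (∑ i, (x i : ℝ) • v i) (∑ i, (y i : ℝ) • v i)).card : ℝ) := by
  classical
  obtain ⟨e, rfl⟩ : ∃ e, d = e + 3 := ⟨d - 3, by omega⟩
  obtain ⟨C, hC, hM⟩ := pairs_bound e
  refine ⟨1 / (4 * C * 2 ^ (2 * e + 4)), by positivity, fun E _ _ v hv t S hS h2 => ?_⟩
  obtain ⟨x, hx, h⟩ := pinned_of_pairs (Nat.succ_pos _)
    (fun R => C * (R : ℝ) ^ (2 * e + 4)) hM v hv t S hS h2
  refine ⟨x, hx, ?_⟩
  push_cast at h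
  rw [show 2 * (e + 3) - 2 = 2 * e + 4 by omega, one_div, inv_mul_le_iff₀ (by positivity)]
  exact h.trans (le_of_eq (by rw [mul_pow]; ring))

end Vale.Agent.P054
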